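/-
Row 239, package DET: Frobenius detection (paper Prop. 3.2 (i)).  Owner helper139.

`x ∈ X_ℓ(M_U)` vanishing on Frobenius lifts at degree one primes over infinitely many rational primes is `0`.
Inputs: `xl_top_repr` (Θ_U x = ∑ c_σ lg ∘ σ), `xl_ray_exponent`, `xl_theta_of_dv`, `xl_theta_injective` (package XL),
`Log.log_rank` (package LOG), `Det.indep_conjugates`.
-/
import Claimed.Agent.R239.XL.Chain
import Claimed.Agent.R239.XL.FromCFT
import Claimed.Agent.R239.LogMain
import Claimed.Agent.R239.Det.Indep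

set_option autoImplicit false

open NumberField IsDedekindDomain Claims.C0403

namespace Claimed.Agent.R239

open CFT

/-- an integer whose divisor is `h v` generates `v ^ h` -/
theorem det_span_eq_pow {M : Type*} [Field M] [NumberField M] (v : Pl M) (h : ℕ) (β : 𝓞 M)
    (hβ : dv (β : M) = Finsupp.single v (h : ℤ)) (h0 : β ≠ 0) :
    Ideal.span {β} = v.asIdeal ^ h := by
  classical
  have hβ0 : (β : M) ≠ 0 := by
    intro h1
    exact h0 (RingOfIntegers.ext (by simpa using h1))
  have hord : ∀ w : Pl M, ord w (β : M) = if v = w then (h : ℤ) else 0 := by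
    intro w
    rw [← dv_apply, hβ, Finsupp.single_apply]
  apply le_antisymm
  · rw [Ideal.span_singleton_le_iff_mem, ← le_ord_iff_mem_pow v h0, hord, if_pos rfl]
  · intro y hy
    by_cases hy0 : y = 0
    · rw [hy0]; exact zero_mem _
    have hy0' : (y : M) ≠ 0 := by
      intro h1
      exact hy0 (RingOfIntegers.ext (by simpa using h1))
    obtain ⟨z, hz⟩ := exists_integer_of_ord_nonneg ((y : M) / (β : M)) (by
      intro w
      rw [ord_div w hy0' hβ0, hord]
      split_ifs with hw
      · subst hw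
        have := (le_ord_iff_mem_pow v hy0 h).2 hy
        omega
      · have := ord_nonneg_of_integer w y
        omega)
    rw [Ideal.mem_span_singleton]
    refine ⟨z, ?_⟩
    apply RingOfIntegers.ext
    have e : ((β * z : 𝓞 M) : M) = (β : M) * (z : M) := map_mul (algebraMap (𝓞 M) M) β z
    rw [e, hz]
    field_simp

theorem det_isIntegral_map {M K : Type*} [Field M] [Field K] (τ : M →+* K) {z : M}
    (hz : IsIntegral ℤ z) : IsIntegral ℤ (τ z) := hz.map τ.toIntAlgHom

variable {F E : Type} [Field F] [NumberField F] [Field E] [Algebra F E] [IsGalois F E]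
variable {ℓ : ℕ} [Fact ℓ.Prime]

/-- **Frobenius detection** (paper Prop. 3.2 (i)), from CFT-1. -/
theorem det_detect (h1 : XlCft1 ℓ) (hE : SolvablyClosed E) (hodd : ℓ ≠ 2) (U : Subgroup Gal(E/F))
    (hU : IsOpen (U : Set Gal(E/F))) (x : XChar ℓ U)
    (h : {q : ℕ | q.Prime ∧ ∃ (P : Ideal (𝓞 E)) (σ : Gal(E/F)) (hσ : IsFrob U P σ), P.IsMaximal ∧ Over P q ∧
      q ≠ ℓ ∧ normAt U P = q ∧ x.1 ⟨σ, hσ.1⟩ = 0}.Infinite) : x = 0 := by
  classical
  have := hil_numberField U hU
  obtain ⟨c, hc⟩ := xl_top_repr h1 hodd hE U hU x ℂ_[ℓ]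
  obtain ⟨hh, hh0, hray⟩ := xl_ray_exponent ℓ (fld U)
  have hinf := h.sdiff (Finset.finite_toSet (Det.badPrimes (fld U) ℂ_[ℓ]))
  set emb := hinf.natEmbedding with hemb
  let q : ℕ → ℕ := fun i => (emb i : ℕ)
  have hqinj : Function.Injective q := fun i j hij => emb.injective (Subtype.ext hij)
  have hqprime : ∀ i, (q i).Prime := fun i => (emb i).2.1.1
  have hqbad : ∀ i, q i ∉ Det.badPrimes (fld U) ℂ_[ℓ] := fun i hi => (emb i).2.2 (by simpa using hi)
  choose P σ hσ hPmax hover hne hnorm hx0 using fun i => (emb i).2.1.2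
  -- the primes of `M_U`
  have hbmax : ∀ i, (below U (P i)).IsMaximal := fun i => by
    have := hPmax i
    exact hil_below_isMaximal U (P i)
  have hcard : ∀ i, Ideal.absNorm (below U (P i)) = q i := fun i => by
    rw [Ideal.absNorm_apply, Submodule.cardQuot_apply]
    exact hnorm i
  have hbot : ∀ i, below U (P i) ≠ ⊥ := fun i h0 => by
    have := hcard i
    rw [h0, Ideal.absNorm_bot] at this
    exact (hqprime i).ne_zero this.symm
  let v : ℕ → Pl (fld U) := fun i => ⟨below U (P i), (hbmax i).isPrime, hbot i⟩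
  have hvl : ∀ i, ¬ xlAbove ℓ (fld U) (v i) := fun i hv => by
    have := hPmax i
    have h2 := (xl_above_iff U (v i) (P i) rfl).1 hv
    exact hne i (hil_over_unique (P i) (hqprime i) Fact.out (hover i) h2)
  have hex : ∀ i, ∃ b : (fld U)ˣ, b ∈ xlGamma ℓ (fld U) 1 ∧
      dv (b : fld U) = Finsupp.single (v i) (hh : ℤ) := fun i => by
    obtain ⟨b, hb1, hb2⟩ := hray (Finsupp.single (v i) 1) (by
      intro w hw
      rw [Finsupp.single_apply, if_neg]
      rintro rfl
      exact hvl i hw)
    refine ⟨b, hb1, ?_⟩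
    rw [hb2, Finsupp.smul_single]
    simp
  choose b hb1 hb2 using hex
  -- they are integers
  have hint : ∀ i, ∃ β : 𝓞 (fld U), (β : fld U) = (b i : fld U) := fun i => by
    refine exists_integer_of_ord_nonneg _ fun w => ?_
    rw [← dv_apply, hb2, Finsupp.single_apply]
    split_ifs <;> positivity
  choose β hβ using hint
  have hβ0 : ∀ i, β i ≠ 0 := fun i h0 => by
    have := hβ i
    rw [h0] at this
    exact (b i).ne_zero (by simpa using this.symm)
  have hspan : ∀ i, Ideal.span {β i} = (below U (P i)) ^ hh := fun i =>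
    det_span_eq_pow (v i) hh (β i) (by rw [hβ, hb2]) (hβ0 i)
  -- the linear relations
  have hrel : ∀ i, ∑ τ : (fld U) →+* ℂ_[ℓ], c τ * xlLg ℓ (τ (b i : fld U)) = 0 := fun i => by
    rw [← hc ⟨b i, hb1 i⟩, xl_theta_of_dv hE U hU x (v i) (hvl i) (σ i) ⟨P i, hPmax i, rfl, hσ i⟩
      ⟨b i, hb1 i⟩ hh (hb2 i), hx0, mul_zero, map_zero]
  -- `log_rank`
  set n := Fintype.card ((fld U) →+* ℂ_[ℓ]) with hn
  let e : ((fld U) →+* ℂ_[ℓ]) ≃ Fin n := Fintype.equivFin _
  have hsmall : ∀ i (τ : (fld U) →+* ℂ_[ℓ]), ‖τ (b i : fld U) - 1‖ < Log.expRad ℓ := fun i τ =>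
    (xl_emb_gamma_one ℓ (fld U) τ ⟨b i, hb1 i⟩).trans_lt (xl_norm_ell_lt_expRad ℓ hodd)
  have hexp : ∀ i j, NormedSpace.exp (xlLg ℓ ((e.symm j) (b i : fld U))) = (e.symm j) (b i : fld U) :=
    fun i j => (xl_lg_spec ℓ (hsmall i _)).2
  have hc0 : (fun j => c (e.symm j)) = 0 := by
    refine Log.log_rank ℓ n (fun i j => xlLg ℓ ((e.symm j) (b i : fld U))) ?_ ?_ ?_ _ ?_
    · exact fun i j => (xl_lg_spec ℓ (hsmall i _)).1
    · intro i j
      rw [hexp, ← hβ]
      exact det_isIntegral_map (e.symm j) (RingOfIntegers.isIntegral_coe (β i))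
    · intro m
      refine ⟨fun i j => ?_, fun a ha => ?_⟩
      · show NormedSpace.exp (xlLg ℓ ((e.symm j) (b i : fld U))) ≠ 0
        rw [hexp]
        exact (map_ne_zero _).2 (b i).ne_zero
      · simp_rw [hexp] at ha
        have key := Det.indep_conjugates (K := ℂ_[ℓ]) (fun i : Fin m => β i)
          (fun i : Fin m => below U (P i)) (fun i : Fin m => q i) (fun _ => hh)
          (fun i => (hbmax i).isPrime) (fun i => hqprime i)
          (fun i j hij => Fin.ext (hqinj hij)) (fun i => hqbad i) (fun i => hcard i)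
          (fun _ => hh0) (fun i => hspan i) (fun i τ => a i (e τ)) (by
            rw [← ha]
            refine Finset.prod_congr rfl fun i _ => ?_
            rw [← Equiv.prod_comp e.symm]
            refine Finset.prod_congr rfl fun j _ => ?_
            rw [hβ, Equiv.apply_symm_apply])
        funext i j
        have := congrFun (congrFun key i) (e.symm j)
        simpa using this
    · intro i
      rw [← hrel i, ← Equiv.sum_comp e.symm]
  have hc0' : ∀ τ, c τ = 0 := fun τ => by
    have := congrFun hc0 (e τ)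
    simpa using this
  apply xl_theta_injective hE U hU
  rw [map_zero]
  refine AddMonoidHom.ext fun bb => ?_
  obtain ⟨bb, rfl⟩ := Additive.ofMul.surjective bb
  have := hc bb
  simp only [hc0', zero_mul, Finset.sum_const_zero] at this
  simpa using this

/-- the statement `xl_detect` of the interface -/
theorem det_xl_detect (hE : SolvablyClosed E) (hodd : ℓ ≠ 2) (U : Subgroup Gal(E/F))
    (hU : IsOpen (U : Set Gal(E/F))) (x : XChar ℓ U)
    (h : {q : ℕ | q.Prime ∧ ∃ (P : Ideal (𝓞 E)) (σ : Gal(E/F)) (hσ : IsFrob U P σ), P.IsMaximal ∧ Over P q ∧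
      q ≠ ℓ ∧ normAt U P = q ∧ x.1 ⟨σ, hσ.1⟩ = 0}.Infinite) : x = 0 :=
  det_detect (xl_cft1 hodd) hE hodd U hU x h

end Claimed.Agent.R239
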