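/-
Row 239, package DET (Frobenius detection, paper Prop. 3.2), owner helper110.
Multiplicative independence of ALL conjugates of generators of powers of degree-one primes over
distinct rational primes (outside a finite set depending only on the field).

No valuations, no decomposition groups: work with prime ideals `Q` of the ring `𝓞 K` of all algebraic
integers of the big field `K`.  For `(i₀, σ₀)` take `Q` over `σ₀ (P i₀)`.  If `σ (b i) ∈ Q` then
`P i ≤ comap σ Q`, so `p i ∈ Q`, so `i = i₀`; and if `σ ≠ σ₀`, an integer `a` of `M` with `σ a ≠ σ₀ a`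
is congruent to a rational integer `t` modulo `P i₀` (degree one), so `σ a - σ₀ a ∈ Q`, which
forces `p i₀` to divide a fixed nonzero integer.
-/
import Mathlib

set_option autoImplicit false

namespace Claimed.Agent.R239.Det

open NumberField

/-- a nonzero algebraic integer divides a nonzero rational integer. -/
theorem exists_int_multiple {K : Type*} [Field K] [CharZero K] (z : 𝓞 K) (hz : z ≠ 0) :
    ∃ n : ℤ, n ≠ 0 ∧ z ∣ (n : 𝓞 K) := by
  have hz' : (z : K) ≠ 0 := by
    intro h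
    exact hz (RingOfIntegers.ext (by simpa using h))
  have halg : IsAlgebraic ℤ ((z : K))⁻¹ := (RingOfIntegers.isIntegral_coe z).isAlgebraic.inv
  obtain ⟨n, hn, hint⟩ := halg.exists_integral_multiple
  obtain ⟨w, hw⟩ : ∃ w : 𝓞 K, (w : K) = n • ((z : K))⁻¹ := ⟨⟨_, hint⟩, rfl⟩
  refine ⟨n, hn, ⟨w, ?_⟩⟩
  apply RingOfIntegers.ext
  have h1 : ((z * w : 𝓞 K) : K) = (z : K) * (w : K) := map_mul (algebraMap (𝓞 K) K) z w
  have h2 : (((n : 𝓞 K) : 𝓞 K) : K) = (n : K) := map_intCast (algebraMap (𝓞 K) K) n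
  rw [h1, h2, hw, zsmul_eq_mul]
  field_simp

/-- two coprime rational integers cannot both lie in a proper ideal. -/
theorem false_of_coprime_mem {R : Type*} [CommRing R] (Q : Ideal R) (hQ : Q ≠ ⊤) {a b : ℤ}
    (hab : IsCoprime a b) (ha : (a : R) ∈ Q) (hb : (b : R) ∈ Q) : False := by
  obtain ⟨u, v, huv⟩ := hab
  apply hQ
  rw [Ideal.eq_top_iff_one]
  have : (1 : R) = (u : R) * (a : R) + (v : R) * (b : R) := by
    have := congrArg (Int.cast : ℤ → R) huv
    push_cast at this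
    exact this.symm
  rw [this]
  exact Q.add_mem (Q.mul_mem_left _ ha) (Q.mul_mem_left _ hb)

/-- modulo a prime ideal of prime absolute norm every integer of `M` is congruent to a rational integer. -/
theorem exists_int_sub_mem {M : Type*} [Field M] [NumberField M] (P : Ideal (𝓞 M)) {p : ℕ}
    (hp : p.Prime) (hN : Ideal.absNorm P = p) (a : 𝓞 M) : ∃ t : ℤ, a - (t : 𝓞 M) ∈ P := by
  have : Fact p.Prime := ⟨hp⟩
  have hcard : Nat.card (𝓞 M ⧸ P) = p := by
    rw [← hN, Ideal.absNorm_apply, Submodule.cardQuot_apply]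
  have h1 : (Ideal.Quotient.mk P 1) ≠ 0 := by
    intro h
    rw [Ideal.Quotient.eq_zero_iff_mem] at h
    have htop : P = ⊤ := (Ideal.eq_top_iff_one P).2 h
    rw [htop, Ideal.absNorm_top] at hN
    exact hp.one_lt.ne hN
  have := mem_zmultiples_of_prime_card (G := 𝓞 M ⧸ P) hcard (g' := Ideal.Quotient.mk P a) h1
  obtain ⟨t, ht⟩ := AddSubgroup.mem_zmultiples_iff.1 this
  refine ⟨t, ?_⟩
  rw [← Ideal.Quotient.eq_zero_iff_mem, map_sub, ← ht]
  simp

section

variable (M : Type*) [Field M] [NumberField M] (K : Type*) [Field K] [CharZero K]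

/-- for two distinct embeddings a nonzero rational integer divisible by `σ a - σ' a` for some integer `a`. -/
theorem exists_sep (σ σ' : M →+* K) (h : σ ≠ σ') :
    ∃ (a : 𝓞 M) (n : ℤ), n ≠ 0 ∧
      (RingOfIntegers.mapRingHom σ a - RingOfIntegers.mapRingHom σ' a) ∣ (n : 𝓞 K) := by
  have : ∃ a : 𝓞 M, σ (a : M) ≠ σ' (a : M) := by
    by_contra hcon
    push Not at hcon
    exact h (IsFractionRing.ringHom_ext (A := 𝓞 M) hcon)
  obtain ⟨a, ha⟩ := this
  have hz : RingOfIntegers.mapRingHom σ a - RingOfIntegers.mapRingHom σ' a ≠ 0 := by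
    intro h0
    apply ha
    have := congrArg (fun x : 𝓞 K => (x : K)) (sub_eq_zero.1 h0)
    simpa [RingOfIntegers.mapRingHom_apply] using this
  obtain ⟨n, hn, hdvd⟩ := exists_int_multiple _ hz
  exact ⟨a, n, hn, hdvd⟩

open Classical in
/-- the exceptional set of rational primes. -/
noncomputable def badPrimes : Finset ℕ :=
  (Finset.univ : Finset ((M →+* K) × (M →+* K))).biUnion fun q =>
    if h : q.1 ≠ q.2 then ((exists_sep M K q.1 q.2 h).choose_spec.choose).natAbs.primeFactors else ∅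

variable {M K}

theorem sep_of_not_mem_badPrimes {σ σ' : M →+* K} (h : σ ≠ σ') {p : ℕ} (hp : p.Prime)
    (hpB : p ∉ badPrimes M K) :
    ∃ (a : 𝓞 M) (n : ℤ), IsCoprime (p : ℤ) n ∧
      (RingOfIntegers.mapRingHom σ a - RingOfIntegers.mapRingHom σ' a) ∣ (n : 𝓞 K) := by
  classical
  have hs := (exists_sep M K σ σ' h).choose_spec.choose_spec
  refine ⟨(exists_sep M K σ σ' h).choose, (exists_sep M K σ σ' h).choose_spec.choose, ?_, hs.2⟩
  set n := (exists_sep M K σ σ' h).choose_spec.choose with hn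
  have hnot : p ∉ n.natAbs.primeFactors := by
    intro hmem
    apply hpB
    unfold badPrimes
    rw [Finset.mem_biUnion]
    refine ⟨(σ, σ'), Finset.mem_univ _, ?_⟩
    simp only [ne_eq, h, not_false_eq_true, dite_true]
    exact hmem
  have hndvd : ¬ p ∣ n.natAbs := by
    intro hd
    exact hnot (Nat.mem_primeFactors.2 ⟨hp, hd, Int.natAbs_ne_zero.2 hs.1⟩)
  have : Nat.Coprime p n.natAbs := (Nat.Prime.coprime_iff_not_dvd hp).2 hndvd
  rw [Int.isCoprime_iff_gcd_eq_one, Int.gcd_eq_natAbs]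
  simpa using this

/-- KEY: a prime of `𝓞 K` that contains exactly one of the numbers `σ (b i)`. -/
theorem exists_prime_sep {m : ℕ} (b : Fin m → 𝓞 M) (P : Fin m → Ideal (𝓞 M)) (p h : Fin m → ℕ)
    (hP : ∀ i, (P i).IsPrime) (hp : ∀ i, (p i).Prime) (hpinj : Function.Injective p)
    (hpB : ∀ i, p i ∉ badPrimes M K) (hN : ∀ i, Ideal.absNorm (P i) = p i) (hh : ∀ i, 0 < h i)
    (hb : ∀ i, Ideal.span {b i} = P i ^ h i) (i₀ : Fin m) (σ₀ : M →+* K) :
    ∃ Q : Ideal (𝓞 K), Q.IsPrime ∧ RingOfIntegers.mapRingHom σ₀ (b i₀) ∈ Q ∧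
      ∀ i σ, RingOfIntegers.mapRingHom σ (b i) ∈ Q → i = i₀ ∧ σ = σ₀ := by
  classical
  -- lying over along `σ₀`
  let : Algebra (𝓞 M) (𝓞 K) := (RingOfIntegers.mapRingHom σ₀).toAlgebra
  have : Algebra.IsIntegral (𝓞 M) (𝓞 K) := by
    refine ⟨fun x => ?_⟩
    have hx : IsIntegral ℤ x := by
      have := RingOfIntegers.isIntegral_coe x
      exact (isIntegral_algebraMap_iff RingOfIntegers.coe_injective).1 this
    obtain ⟨f, hf, hfx⟩ := hx
    refine ⟨f.map (algebraMap ℤ (𝓞 M)), hf.map _, ?_⟩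
    rw [Polynomial.eval₂_map]
    have : (algebraMap (𝓞 M) (𝓞 K)).comp (algebraMap ℤ (𝓞 M)) = algebraMap ℤ (𝓞 K) :=
      RingHom.ext_int _ _
    rw [this]
    exact hfx
  have := hP i₀
  have hker : RingHom.ker (algebraMap (𝓞 M) (𝓞 K)) ≤ P i₀ := by
    intro x hx
    have hx0 : x = 0 := by
      have h1 : RingOfIntegers.mapRingHom σ₀ x = 0 := hx
      have h2 := congrArg (fun y : 𝓞 K => (y : K)) h1
      simp only [RingOfIntegers.mapRingHom_apply, map_zero] at h2
      exact RingOfIntegers.ext (by simpa using (map_eq_zero σ₀).1 h2)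
    rw [hx0]; exact (P i₀).zero_mem
  obtain ⟨Q, hQ, hQP⟩ := Ideal.exists_ideal_over_prime_of_isIntegral_of_isDomain (S := 𝓞 K) (P i₀) hker
  have hmem₀ : ∀ x : 𝓞 M, x ∈ P i₀ → RingOfIntegers.mapRingHom σ₀ x ∈ Q := by
    intro x hx
    have : x ∈ Ideal.comap (algebraMap (𝓞 M) (𝓞 K)) Q := by rw [hQP]; exact hx
    exact this
  have hbP : ∀ i, b i ∈ P i := by
    intro i
    have h1 : b i ∈ P i ^ h i := by rw [← hb i]; exact Ideal.mem_span_singleton_self _
    exact Ideal.pow_le_self (hh i).ne' h1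
  have hpP : ∀ i, ((p i : ℕ) : 𝓞 M) ∈ P i := by
    intro i
    have := Ideal.absNorm_mem (P i)
    rwa [hN i] at this
  have hp₀Q : ((p i₀ : ℤ) : 𝓞 K) ∈ Q := by
    have := hmem₀ _ (hpP i₀)
    simpa using this
  refine ⟨Q, hQ, hmem₀ _ (hbP i₀), ?_⟩
  intro i σ hi
  -- `P i ≤ comap σ Q`
  have hle : P i ≤ Ideal.comap (RingOfIntegers.mapRingHom σ) Q := by
    have : (Ideal.comap (RingOfIntegers.mapRingHom σ) Q).IsPrime := Ideal.comap_isPrime _ _
    apply Ideal.IsPrime.le_of_pow_le (n := h i)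
    rw [← hb i, Ideal.span_singleton_le_iff_mem]
    exact hi
  have hpiQ : ((p i : ℤ) : 𝓞 K) ∈ Q := by
    have := hle (hpP i)
    simpa [Ideal.mem_comap] using this
  have hii : i = i₀ := by
    by_contra hne
    have hcop : IsCoprime ((p i : ℕ) : ℤ) ((p i₀ : ℕ) : ℤ) :=
      Nat.Coprime.isCoprime ((Nat.coprime_primes (hp i) (hp i₀)).2 fun h => hne (hpinj h))
    exact false_of_coprime_mem Q hQ.ne_top hcop hpiQ hp₀Q
  refine ⟨hii, ?_⟩
  subst hii
  by_contra hne
  obtain ⟨a, n, hcop, hdvd⟩ := sep_of_not_mem_badPrimes hne (hp i) (hpB i)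
  obtain ⟨t, ht⟩ := exists_int_sub_mem (P i) (hp i) (hN i) a
  have h1 : RingOfIntegers.mapRingHom σ a - (t : 𝓞 K) ∈ Q := by
    have := hle ht
    simpa [Ideal.mem_comap] using this
  have h2 : RingOfIntegers.mapRingHom σ₀ a - (t : 𝓞 K) ∈ Q := by
    have := hmem₀ _ ht
    simpa using this
  have h3 : RingOfIntegers.mapRingHom σ a - RingOfIntegers.mapRingHom σ₀ a ∈ Q := by
    have := Q.sub_mem h1 h2
    simpa using this
  have h4 : (n : 𝓞 K) ∈ Q := Ideal.mem_of_dvd Q hdvd h3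
  exact false_of_coprime_mem Q hQ.ne_top hcop hp₀Q h4

/-- **Multiplicative independence of all conjugates.** -/
theorem indep_conjugates {m : ℕ} (b : Fin m → 𝓞 M) (P : Fin m → Ideal (𝓞 M)) (p h : Fin m → ℕ)
    (hP : ∀ i, (P i).IsPrime) (hp : ∀ i, (p i).Prime) (hpinj : Function.Injective p)
    (hpB : ∀ i, p i ∉ badPrimes M K) (hN : ∀ i, Ideal.absNorm (P i) = p i) (hh : ∀ i, 0 < h i)
    (hb : ∀ i, Ideal.span {b i} = P i ^ h i)
    (e : Fin m → (M →+* K) → ℤ) (he : (∏ i, ∏ σ : M →+* K, (σ (b i : M)) ^ e i σ) = 1) : e = 0 := by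
  classical
  -- the elements
  set x : Fin m × (M →+* K) → 𝓞 K := fun q => RingOfIntegers.mapRingHom q.2 (b q.1) with hx
  have hb0 : ∀ i, b i ≠ 0 := by
    intro i h0
    have h1 := hb i
    rw [h0, Ideal.span_singleton_eq_bot.2 rfl] at h1
    have h2 : P i = ⊥ := by
      have := h1.symm
      exact pow_eq_zero_iff (hh i).ne' |>.1 this
    have h3 := hN i
    rw [h2, Ideal.absNorm_bot] at h3
    exact (hp i).ne_zero h3.symm
  have hxK : ∀ q, ((x q : 𝓞 K) : K) = q.2 (b q.1 : M) := fun q => RingOfIntegers.mapRingHom_apply _ _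
  have hx0 : ∀ q, ((x q : 𝓞 K) : K) ≠ 0 := by
    intro q
    rw [hxK]
    intro h0
    apply hb0 q.1
    exact RingOfIntegers.ext (by simpa using (map_eq_zero q.2).1 h0)
  set E : Fin m × (M →+* K) → ℤ := fun q => e q.1 q.2 with hE
  have hprod : (∏ q : Fin m × (M →+* K), ((x q : 𝓞 K) : K) ^ E q) = 1 := by
    rw [Fintype.prod_prod_type]
    simpa [hxK, hE] using he
  -- separate signs
  have hsplit : (∏ q, x q ^ (E q).toNat) = ∏ q, x q ^ (-E q).toNat := by
    apply RingOfIntegers.ext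
    have h1 : ∀ q, ((x q : 𝓞 K) : K) ^ E q
        = ((x q : 𝓞 K) : K) ^ (E q).toNat / ((x q : 𝓞 K) : K) ^ (-E q).toNat := by
      intro q
      conv_lhs => rw [← Int.toNat_sub_toNat_neg (E q)]
      rw [zpow_sub₀ (hx0 q), zpow_natCast, zpow_natCast]
    simp only [h1, Finset.prod_div_distrib] at hprod
    have hne : (∏ q, ((x q : 𝓞 K) : K) ^ (-E q).toNat) ≠ 0 :=
      Finset.prod_ne_zero_iff.2 fun q _ => pow_ne_zero _ (hx0 q)
    have := (div_eq_one_iff_eq hne).1 hprod
    simpa [map_prod, map_pow] using this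
  -- the contradiction for a nonzero exponent
  have key : ∀ (E' : Fin m × (M →+* K) → ℤ),
      (∏ q, x q ^ (E' q).toNat) = ∏ q, x q ^ (-E' q).toNat → ∀ q₀, ¬ 0 < E' q₀ := by
    intro E' hE' q₀ hpos
    obtain ⟨Q, hQ, hQ0, hQu⟩ := exists_prime_sep (K := K) b P p h hP hp hpinj hpB hN hh hb q₀.1 q₀.2
    have hL : (∏ q, x q ^ (E' q).toNat) ∈ Q := by
      rw [Ideal.IsPrime.prod_mem_iff]
      refine ⟨q₀, Finset.mem_univ _, ?_⟩
      have : 0 < (E' q₀).toNat := by omega
      exact Ideal.pow_mem_of_mem Q hQ0 _ this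
    rw [hE', Ideal.IsPrime.prod_mem_iff] at hL
    obtain ⟨q, -, hq⟩ := hL
    have hq' : x q ∈ Q := hQ.mem_of_pow_mem _ hq
    obtain ⟨h1, h2⟩ := hQu q.1 q.2 hq'
    have hqq : q = q₀ := Prod.ext h1 h2
    rw [hqq] at hq
    have : (-E' q₀).toNat = 0 := by omega
    rw [this, pow_zero] at hq
    exact hQ.ne_top ((Ideal.eq_top_iff_one Q).2 hq)
  funext i σ
  have h1 := key E hsplit (i, σ)
  have h2 := key (fun q => -E q) (by simpa using hsplit.symm) (i, σ)
  simp only [hE] at h1 h2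
  show e i σ = 0
  omega

end

end Claimed.Agent.R239.Det
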